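import Vale.Agent.P088.Bdl.B12

/-!
# P088: the operator `d_A^* d_A` exists (Green's formula on the manifold) and is unique
-/

open Bundle Manifold MeasureTheory Set Filter Topology
open scoped ContDiff

set_option linter.unusedSectionVars false

noncomputable section

namespace Vale.Agent.P088W19

open Vale.Agent.P088 Vale.Agent.P088.EYM

universe u

variable {n N : ℕ} [NeZero n] {M : Type u} [TopologicalSpace M]
  [ChartedSpace (EuclideanHalfSpace n) M] [IsManifold (𝓡∂ n) ∞ M] [T2Space M] [CompactSpace M]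
  [MeasurableSpace M] [BorelSpace M]

/-- Green's formula for `u`, with `w = d_A^* d_A u` -/
def Rep (P : One n N M) (u w : M → Fib N) : Prop :=
  ∀ φ, SmS n φ → (∀ x ∈ (𝓡∂ n).boundary M, φ x = 0) →
    P.E u φ = ∫ x, inner ℂ (w x) (φ x) ∂P.μ

theorem integrable_of_cont (P : One n N M) {G : M → ℂ} (hG : Continuous G) : Integrable G P.μ := by
  have := (cInt n N M P).1
  exact hG.integrable_of_hasCompactSupport (HasCompactSupport.of_compactSpace _)

theorem smS_zero : SmS n (0 : M → Fib N) := contMDiff_const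

theorem E_zero (P : One n N M) {φ : M → Fib N} (hφ : SmS n φ) : P.E 0 φ = 0 := by
  obtain ⟨-, h2, h3, -⟩ := cForm cInt n N M P
  have h := h2 0 φ 0 hφ smS_zero
  rw [zero_smul, zero_mul] at h
  rw [h3 φ 0 hφ smS_zero, h, map_zero]

theorem E_add (P : One n N M) {u v φ : M → Fib N} (hu : SmS n u) (hv : SmS n v) (hφ : SmS n φ) :
    P.E (u + v) φ = P.E u φ + P.E v φ := by
  obtain ⟨h1, -, h3, -⟩ := cForm cInt n N M P
  rw [h3 φ (u + v) hφ (cForm_smS_add hu hv), h1 φ u v hφ hu hv, map_add, ← h3 φ u hφ hu,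
    ← h3 φ v hφ hv]

theorem rep_zero (P : One n N M) : Rep P 0 0 := by
  intro φ hφ _
  rw [E_zero P hφ]
  simp

theorem Rep.add {P : One n N M} {u v w w' : M → Fib N} (hu : SmS n u) (hv : SmS n v)
    (hw : SmS n w) (hw' : SmS n w') (h : Rep P u w) (h' : Rep P v w') :
    Rep P (u + v) (w + w') := by
  intro φ hφ hb
  rw [E_add P hu hv hφ, h φ hφ hb, h' φ hφ hb, ← integral_add
    (integrable_of_cont P (hw.continuous.inner hφ.continuous))
    (integrable_of_cont P (hw'.continuous.inner hφ.continuous))]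
  simp only [Pi.add_apply, inner_add_left]

/-- Green's formula for sections which are supported in a small half ball -/
theorem rep_loc (P : One n N M) (p : M) {z : E n} {r : ℝ} (hr : 0 < r) (hD : HB z r ⊆ tg n p)
    {u : M → Fib N} (hu : SmS n u)
    (hs : tsupport u ⊆ (xc n p).source ∩ xc n p ⁻¹' Metric.ball z (r / 2)) :
    ∃ w, SmS n w ∧ Rep P u w := by
  obtain ⟨-, hOk, hbd, hsm⟩ := cLoc n N M
  have hR : RelOpen (HB z r) := AGreen_rel_HB z r
  have hL : (P.loc p).Ok (HB z r) := CHarm_ok_mono (hOk P p) hD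
  have hc : ContDiffOn ℝ ∞ (lu (𝓡∂ n) p u) (HB z r) := (hsm u hu p).mono hD
  have hc0 : ∀ y ∈ HB z r, y ∉ Metric.ball z (r / 2) → lu (𝓡∂ n) p u y = 0 := by
    intro y hy hy2
    refine image_eq_zero_of_notMem_tsupport (f := u) fun h => hy2 ?_
    have h1 : xc n p ((xc n p).symm y) ∈ Metric.ball z (r / 2) := (hs h).2
    rwa [(xc n p).right_inv (hD hy)] at h1
  have hsq : ∀ y ∈ HB z r, Real.sqrt ((P.loc p).g y).det ≠ 0 := fun y hy =>
    (Real.sqrt_pos.2 (hL.g_pos y hy).det_pos).ne'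
  have hw : ContDiffOn ℝ ∞ (fun y => (-(Real.sqrt ((P.loc p).g y).det)⁻¹) •
      Lop (P.loc p) (lu (𝓡∂ n) p u) y) (HB z r) :=
    (((Jacobi_det_smooth hL.g_smooth).sqrt fun y hy => (hL.g_pos y hy).det_pos.ne').inv
      hsq).neg.smul (CHarm_Lop_smooth hR hL hc)
  have hKD : Metric.closedBall z (r / 2) ∩ Hs n ⊆ HB z r := fun y hy =>
    ⟨Metric.closedBall_subset_ball (by linarith) hy.1, hy.2⟩
  obtain ⟨w, hws, hw1, hw2, -⟩ := cExt n N M p _ (HB z r) (Metric.closedBall z (r / 2) ∩ Hs n) hR hD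
    hw ((isCompact_closedBall z (r / 2)).inter_right isClosed_Hs) hKD (fun y hy hy2 => by
      have h1 : y ∉ Metric.closedBall z (r / 2) := fun h => hy2 ⟨h, hy.2⟩
      rw [CRungeC_Lop_zero (CRungeC_relOpen_sdiff hR Metric.isClosed_closedBall)
        (fun y hy => hc0 y hy.1 fun h => hy.2 (Metric.ball_subset_closedBall h)) ⟨hy, h1⟩,
        smul_zero])
  refine ⟨w, hws, fun φ hφ hb => ?_⟩
  have hsup : tsupport u ⊆ (xc n p).symm '' HB z r := by
    intro x hx
    obtain ⟨h1, h2⟩ := hs hx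
    refine ⟨xc n p x, ⟨Metric.ball_subset_ball (by linarith) h2, ?_⟩, (xc n p).left_inv h1⟩
    exact (cLoc_relOpen p).subset ((xc n p).map_source h1)
  have hd : ContDiffOn ℝ ∞ (lu (𝓡∂ n) p φ) (HB z r) := (hsm φ hφ p).mono hD
  have h1 := (cEnergy cInt n N M P p (HB z r) hR hD).1 u φ hu hφ (Or.inl hsup)
  have h2 := aGreen n N (P.loc p) z r hr hL _ _ (hc.of_le (by norm_cast)) (hd.of_le (by norm_cast))
    ⟨r / 2, by linarith, hc0⟩ (fun y hy hy0 => hb _ ((hbd p _ ((xc n p).map_target (hD hy))).2 (by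
      rw [(xc n p).right_inv (hD hy)]
      exact hy0)))
  obtain ⟨h3, h4⟩ := (cInt n N M P).2.2 p (HB z r) (AGreen_meas_HB z r) hD
  have h5 := h4 (fun x => inner ℂ (w x) (φ x))
    (hws.continuous.inner hφ.continuous).aestronglyMeasurable
  rw [h1, h2, ← setIntegral_eq_integral_of_forall_compl_eq_zero (s := (xc n p).symm '' HB z r)
    (fun x hx => by rw [hw2 x fun h => hx (image_mono hKD h), inner_zero_left]), h5,
    ← integral_neg]
  refine setIntegral_congr_fun (AGreen_meas_HB z r) fun y hy => ?_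
  have h6 : (Real.sqrt ((P.loc p).g y).det : ℂ) ≠ 0 := Complex.ofReal_ne_zero.2 (hsq y hy)
  show -inner ℂ (Lop (P.loc p) (lu (𝓡∂ n) p u) y) (φ ((xc n p).symm y)) =
    (Real.sqrt ((P.loc p).g y).det : ℂ) * inner ℂ (w ((xc n p).symm y)) (φ ((xc n p).symm y))
  rw [hw1 y hy, inner_smul_left_eq_smul, Complex.real_smul]
  push_cast
  field_simp

/-- **Green's formula on the manifold**: `d_A^* d_A u` exists -/
theorem exists_rep (P : One n N M) {u : M → Fib N} (hu : SmS n u) : ∃ w, SmS n w ∧ Rep P u w := by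
  classical
  have h1 : ∀ p : M, ∃ r > 0, HB (xc n p p) r ⊆ tg n p := by
    intro p
    obtain ⟨O, hO, h⟩ := cLoc_relOpen (n := n) p
    have h2 : xc n p p ∈ tg n p := (xc n p).map_source (mem_extChartAt_source p)
    rw [h] at h2
    obtain ⟨r, hr, h3⟩ := Metric.isOpen_iff.1 hO _ h2.1
    exact ⟨r, hr, fun y hy => h ▸ ⟨h3 hy.1, hy.2⟩⟩
  choose r hr hD using h1
  let U : M → Set M := fun p => (xc n p).source ∩ xc n p ⁻¹' Metric.ball (xc n p p) (r p / 2)
  have hU : ∀ p, IsOpen (U p) := fun p =>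
    (continuousOn_extChartAt p).isOpen_inter_preimage (isOpen_extChartAt_source p)
      Metric.isOpen_ball
  obtain ⟨t, ht⟩ := isCompact_univ.elim_finite_subcover U hU fun p _ =>
    mem_iUnion.2 ⟨p, mem_extChartAt_source p, Metric.mem_ball_self (half_pos (hr p))⟩
  obtain ⟨f, hf⟩ := SmoothPartitionOfUnity.exists_isSubordinate (𝓡∂ n) (s := (univ : Set M))
    isClosed_univ (fun i : t => U i) (fun i => hU i) (fun x hx => by
      obtain ⟨i, hi, h⟩ := mem_iUnion₂.1 (ht hx)
      exact mem_iUnion.2 ⟨⟨i, hi⟩, h⟩)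
  let v : t → M → Fib N := fun i x => f i x • u x
  have hv : ∀ i, SmS n (v i) := fun i => (f i).contMDiff.smul hu
  have h2 : ∀ s : Finset t, SmS n (∑ i ∈ s, v i) ∧ ∃ w, SmS n w ∧ Rep P (∑ i ∈ s, v i) w := by
    intro s
    induction s using Finset.induction_on with
    | empty => exact ⟨smS_zero, 0, smS_zero, rep_zero P⟩
    | insert i s hi ih =>
      obtain ⟨h3, w, hw, h4⟩ := ih
      obtain ⟨w', hw', h5⟩ := rep_loc P i.1 (hr i) (hD i) (hv i)
        ((tsupport_smul_subset_left _ _).trans (hf i))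
      rw [Finset.sum_insert hi]
      exact ⟨cForm_smS_add (hv i) h3, w' + w, cForm_smS_add hw' hw, h5.add (hv i) h3 hw' hw h4⟩
  have h3 : ∑ i, v i = u := by
    funext x
    have h4 := f.sum_eq_one (mem_univ x)
    rw [finsum_eq_sum_of_fintype] at h4
    rw [Finset.sum_apply]
    show ∑ i, f i x • u x = u x
    rw [← Finset.sum_smul, h4, one_smul]
  exact h3 ▸ (h2 Finset.univ).2

/-- the interior is dense -/
theorem mem_closure_interior (x : M) : x ∈ closure ((𝓡∂ n).interior M) := by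
  rw [mem_closure_iff]
  intro O hO hx
  have h1 : xc n x x ∈ tg n x := (xc n x).map_source (mem_extChartAt_source x)
  obtain ⟨O₂, hO₂, h2⟩ := continuousOn_iff'.1 (continuousOn_extChartAt_symm (I := 𝓡∂ n) x) O hO
  have h3 : xc n x x ∈ O₂ := by
    have h4 : xc n x x ∈ (xc n x).symm ⁻¹' O ∩ tg n x :=
      ⟨by rw [mem_preimage, (xc n x).left_inv (mem_extChartAt_source x)]; exact hx, h1⟩
    rw [h2] at h4
    exact h4.1
  obtain ⟨y, hy1, hy2, hy3⟩ := mem_closure_iff.1 (CHarm_mem_closure (cLoc_relOpen x) h1) O₂ hO₂ h3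
  have h5 : y ∈ (xc n x).symm ⁻¹' O ∩ tg n x := by
    rw [h2]
    exact ⟨hy1, hy2⟩
  refine ⟨(xc n x).symm y, h5.1, ?_⟩
  rw [← ModelWithCorners.compl_boundary]
  intro h6
  have h7 := (cLoc_bd x _ ((xc n x).map_target hy2)).1 h6
  rw [(xc n x).right_inv hy2] at h7
  exact (ne_of_gt hy3) h7

/-- **the fundamental lemma** for test sections supported in the interior -/
theorem eq_zero_of_test (P : One n N M) {w : M → Fib N} (hw : Continuous w)
    (h : ∀ φ, SmS n φ → tsupport φ ⊆ (𝓡∂ n).interior M → ∫ x, inner ℂ (w x) (φ x) ∂P.μ = 0) :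
    w = 0 := by
  funext x₀
  by_contra h0
  have hfin := (cInt n N M P).1
  have hpos : P.μ.IsOpenPosMeasure := ⟨fun U hU hne => ((cInt n N M P).2.1 U hU hne).ne'⟩
  have hG : Continuous fun x => (inner ℂ (w x) (w x₀) : ℂ).re :=
    Complex.continuous_re.comp (hw.inner continuous_const)
  have hO : IsOpen {x | 0 < (inner ℂ (w x) (w x₀) : ℂ).re} := isOpen_lt continuous_const hG
  have hx₀ : 0 < (inner ℂ (w x₀) (w x₀) : ℂ).re := (re_inner_self_pos (𝕜 := ℂ)).2 h0
  obtain ⟨x₁, h1, h2⟩ := mem_closure_iff.1 (mem_closure_interior (n := n) x₀) _ hO hx₀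
  have hI : IsOpen ((𝓡∂ n).interior M) :=
    ModelWithCorners.isOpen_interior (I := 𝓡∂ n) (n := ∞) (by simp)
  obtain ⟨χ, -, hχ⟩ := (SmoothBumpFunction.nhds_basis_tsupport (I := 𝓡∂ n) x₁).mem_iff.1
    ((hO.inter hI).mem_nhds ⟨h1, h2⟩)
  have hφ : SmS n fun x => χ x • w x₀ := χ.contMDiff.smul contMDiff_const
  have h3 := h _ hφ ((tsupport_smul_subset_left _ _).trans (hχ.trans inter_subset_right))
  have h4 : ∀ x, (inner ℂ (w x) (χ x • w x₀) : ℂ).re = χ x * (inner ℂ (w x) (w x₀) : ℂ).re := by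
    intro x
    rw [inner_smul_right_eq_smul, Complex.real_smul, Complex.re_ofReal_mul]
  have h5 := integral_re (𝕜 := ℂ) (integrable_of_cont P (hw.inner hφ.continuous))
  rw [h3, map_zero] at h5
  have h6 : 0 < ∫ x, χ x * (inner ℂ (w x) (w x₀) : ℂ).re ∂P.μ := by
    refine (χ.contMDiff.continuous.mul hG).integral_pos_of_hasCompactSupport_nonneg_nonzero
      (HasCompactSupport.of_compactSpace _) (fun x => ?_) (x := x₁) ?_
    · by_cases hx : x ∈ tsupport χ
      · exact mul_nonneg χ.nonneg (le_of_lt (hχ hx).1)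
      · show 0 ≤ χ x * _
        rw [image_eq_zero_of_notMem_tsupport hx, zero_mul]
    · show χ x₁ * _ ≠ 0
      rw [χ.eq_one, one_mul]
      exact ne_of_gt h1
  refine h6.ne' ((integral_congr_ae (Eventually.of_forall fun x => ?_)).trans h5)
  exact (h4 x).symm

theorem bd_zero_of_tsupport {φ : M → Fib N} (h : tsupport φ ⊆ (𝓡∂ n).interior M) :
    ∀ x ∈ (𝓡∂ n).boundary M, φ x = 0 := fun x hx =>
  image_eq_zero_of_notMem_tsupport fun h1 => by
    have h2 := h h1
    rw [← ModelWithCorners.compl_boundary] at h2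
    exact h2 hx

/-- `w = d_A^* d_A u`, tested on sections which are supported in the interior -/
def Rep0 (P : One n N M) (u w : M → Fib N) : Prop :=
  ∀ φ, SmS n φ → tsupport φ ⊆ (𝓡∂ n).interior M → P.E u φ = ∫ x, inner ℂ (w x) (φ x) ∂P.μ

theorem Rep.rep0 {P : One n N M} {u w : M → Fib N} (h : Rep P u w) : Rep0 P u w :=
  fun φ hφ hs => h φ hφ (bd_zero_of_tsupport hs)

theorem Rep0.unique {P : One n N M} {u w w' : M → Fib N} (hw : Continuous w)
    (hw' : Continuous w') (h : Rep0 P u w) (h' : Rep0 P u w') : w = w' := by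
  refine sub_eq_zero.1 (eq_zero_of_test P (hw.sub hw') fun φ hφ hs => ?_)
  simp only [Pi.sub_apply, inner_sub_left]
  rw [integral_sub (integrable_of_cont P (hw.inner hφ.continuous))
    (integrable_of_cont P (hw'.inner hφ.continuous)), ← h φ hφ hs, ← h' φ hφ hs, sub_self]

/-- the two classes of test sections give the same operator -/
theorem Rep0.rep {P : One n N M} {u w : M → Fib N} (hu : SmS n u) (hw : Continuous w)
    (h : Rep0 P u w) : Rep P u w := by
  obtain ⟨w', hw', h'⟩ := exists_rep P hu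
  rw [h.unique hw hw'.continuous h'.rep0]
  exact h'

theorem existsUnique_rep0 (P : One n N M) {u : M → Fib N} (hu : SmS n u) :
    ∃! w, SmS n w ∧ Rep0 P u w := by
  obtain ⟨w, hw, h⟩ := exists_rep P hu
  exact ⟨w, ⟨hw, h.rep0⟩, fun w' h' => h'.2.unique h'.1.continuous hw.continuous h.rep0⟩

/-- `d_A^* d_A u = 0` is the weak equation of the harmonic extension -/
theorem harm_iff_rep0 (P : One n N M) (f u : M → Fib N) :
    P.Harm f u ↔ SmS n u ∧ (∀ x ∈ (𝓡∂ n).boundary M, u x = f x) ∧ Rep0 P u 0 := by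
  constructor
  · intro h
    refine ⟨h.smooth, h.boundary, fun φ hφ hs => ?_⟩
    rw [show P.E u φ = 0 from h.weak φ hφ (bd_zero_of_tsupport hs)]
    simp
  · rintro ⟨h1, h2, h3⟩
    refine ⟨h1, h2, fun φ hφ hb => ?_⟩
    have h4 := h3.rep h1 continuous_const φ hφ hb
    exact h4.trans (by simp)

theorem adj (P : One n N M) {u : M → Fib N} (hu : SmS n u) :
    ∃ w, SmS n w ∧ ∀ φ, SmS n φ → (∀ x ∈ (𝓡∂ n).boundary M, φ x = 0) →
      P.E u φ = ∫ x, inner ℂ (w x) (φ x) ∂P.μ := exists_rep P hu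

theorem uniq (P : One n N M) {w : M → Fib N} (hw : SmS n w)
    (h : ∀ φ, SmS n φ → tsupport φ ⊆ (𝓡∂ n).interior M → ∫ x, inner ℂ (w x) (φ x) ∂P.μ = 0) :
    w = 0 := eq_zero_of_test P hw.continuous h

end Vale.Agent.P088W19
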