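import Vale.Agent.P088.Bdl.B12
import Vale.Agent.P088I65.Defs

/-!
# P088: boundary data are the restrictions of smooth functions on the manifold
-/

open Bundle Manifold MeasureTheory Set Filter Topology
open scoped ContDiff

set_option linter.unusedSectionVars false

noncomputable section

namespace Vale.Agent.P088W19

universe u

variable {n N : ℕ} [NeZero n] {M : Type u} [TopologicalSpace M]
  [ChartedSpace (EuclideanHalfSpace n) M] [IsManifold (𝓡∂ n) ∞ M]

open Vale.Agent.P088I65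

theorem mem_hyp {y : E n} :
    y ∈ (ℝ ∙ EuclideanSpace.single (0 : Fin n) (1 : ℝ))ᗮ ↔ y 0 = 0 := by
  rw [Submodule.mem_orthogonal_singleton_iff_inner_right, EuclideanSpace.inner_single_left]
  simp

theorem res {Γ : Set M} {F : M → Fib N} (hF : Smooth n F)
    (hs : closure {x ∈ (𝓡∂ n).boundary M | F x ≠ 0} ⊆ Γ) : Data n Γ F := by
  refine ⟨fun p => ?_, hs⟩
  have h1 : ContDiffOn ℝ ∞ (fun y => F ((extChartAt (𝓡∂ n) p).symm y))
      (extChartAt (𝓡∂ n) p).target :=
    contMDiffOn_iff_contDiffOn.1 (ContMDiff.comp_contMDiffOn hF (contMDiffOn_extChartAt_symm p))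
  exact h1.comp (ℝ ∙ EuclideanSpace.single (0 : Fin n) (1 : ℝ))ᗮ.subtypeL.contDiff.contDiffOn
    fun z hz => hz

theorem ext [T2Space M] [CompactSpace M] {Γ : Set M} {f : M → Fib N} (hf : Data n Γ f) :
    ∃ F, Smooth n F ∧ ∀ x ∈ (𝓡∂ n).boundary M, F x = f x := by
  obtain ⟨F, hF⟩ := exists_contMDiffMap_forall_mem_convex_of_local (𝓡∂ n) (n := (⊤ : ℕ∞))
    (t := fun x : M => {c : Fib N | x ∈ (𝓡∂ n).boundary M → c = f x}) (fun x => by
      intro a ha b hb s t _ _ hst hx
      rw [ha hx, hb hx, ← add_smul, hst, one_smul]) (fun x => by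
    by_cases hx : x ∈ (𝓡∂ n).boundary M
    · let W := (ℝ ∙ EuclideanSpace.single (0 : Fin n) (1 : ℝ))ᗮ
      have hW : ∀ y : E n, y 0 = 0 → (W.orthogonalProjectionOnto y : E n) = y := fun y hy =>
        Submodule.starProjection_eq_self_iff.2 (mem_hyp.2 hy)
      obtain ⟨O, hO, h⟩ := P088.EYM.cLoc_relOpen (n := n) x
      have h1 : ∀ z : W, z.1 ∈ O → z.1 ∈ (extChartAt (𝓡∂ n) x).target := fun z hz => by
        have h2 : z.1 ∈ O ∩ P088.EYM.Hs n := ⟨hz, (mem_hyp.1 z.2).ge⟩
        rwa [← h] at h2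
      have h3 : IsOpen ((extChartAt (𝓡∂ n) x).source ∩ extChartAt (𝓡∂ n) x ⁻¹'
          {y | (W.orthogonalProjectionOnto y : E n) ∈ O}) :=
        (continuousOn_extChartAt x).isOpen_inter_preimage (isOpen_extChartAt_source x)
          (hO.preimage (continuous_subtype_val.comp W.orthogonalProjectionOnto.continuous))
      refine ⟨_, h3.mem_nhds ⟨mem_extChartAt_source x, ?_⟩, fun y => f ((extChartAt (𝓡∂ n) x).symm
        (W.orthogonalProjectionOnto (extChartAt (𝓡∂ n) x y))), ?_, fun y hy hb => ?_⟩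
      · show (W.orthogonalProjectionOnto (extChartAt (𝓡∂ n) x x) : E n) ∈ O
        rw [hW _ ((P088.EYM.cLoc_bd x x (mem_extChartAt_source x)).1 hx)]
        have h4 : extChartAt (𝓡∂ n) x x ∈ P088.EYM.tg n x := mem_extChartAt_target x
        rw [h] at h4
        exact h4.1
      · have h5 : ContMDiffOn (𝓡∂ n) 𝓘(ℝ, E n) ∞ (extChartAt (𝓡∂ n) x)
            (extChartAt (𝓡∂ n) x).source := by
          rw [extChartAt_source]
          exact contMDiffOn_extChartAt
        exact (contMDiffOn_iff_contDiffOn.2 (hf.1 x)).comp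
          (W.orthogonalProjectionOnto.contDiff.contMDiff.comp_contMDiffOn (h5.mono inter_subset_left))
          fun y hy => h1 _ hy.2
      · show f ((extChartAt (𝓡∂ n) x).symm
          (W.orthogonalProjectionOnto (extChartAt (𝓡∂ n) x y) : E n)) = f y
        rw [hW _ ((P088.EYM.cLoc_bd x y hy.1).1 hb), (extChartAt (𝓡∂ n) x).left_inv hy.1]
    · refine ⟨((𝓡∂ n).boundary M)ᶜ, ?_, fun _ => 0, contMDiffOn_const, fun y hy hb => absurd hb hy⟩
      rw [ModelWithCorners.compl_boundary]
      refine (ModelWithCorners.isOpen_interior (I := 𝓡∂ n) (n := ∞) (by simp)).mem_nhds ?_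
      rwa [← ModelWithCorners.compl_boundary])
  exact ⟨F, F.contMDiff, fun x hx => hF x hx⟩

end Vale.Agent.P088W19
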