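import Vale.Agent.P088.Bdl.B12

/-!
# P088: from the relation in charts to the invariant relation
-/

open Bundle Manifold MeasureTheory Set Filter Topology
open scoped ContDiff Matrix

set_option linter.unusedSectionVars false

noncomputable section

namespace Vale.Agent.P088W19

open Vale.Agent.P088

universe u

variable {n N : ℕ} [NeZero n] {M : Type u} [TopologicalSpace M]
  [ChartedSpace (EuclideanHalfSpace n) M] [IsManifold (𝓡∂ n) ∞ M]

theorem contMDiff_of_smMap {Φ : M → M} (h : B.SmMap (B.at_ n M) Φ) :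
    ContMDiff (𝓡∂ n) (𝓡∂ n) ∞ Φ := by
  have hc : Continuous Φ := h.1
  intro x
  rw [contMDiffAt_iff_target]
  refine ⟨hc.continuousAt, ?_⟩
  have ho : IsOpen (Φ ⁻¹' (chartAt (EuclideanHalfSpace n) (Φ x)).source) :=
    (chartAt (EuclideanHalfSpace n) (Φ x)).open_source.preimage hc
  have h1 : ∀ i : Fin n, ContMDiffAt (𝓡∂ n) 𝓘(ℝ, ℝ) ∞
      (fun y => (extChartAt (𝓡∂ n) (Φ x) (Φ y)) i) x := by
    intro i
    have h2 : ContMDiffOn (𝓡∂ n) 𝓘(ℝ, ℂ) ∞
        (fun y => (((B.at_ n M).ch (Φ x) (Φ y) i : ℝ) : ℂ))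
        (Φ ⁻¹' (chartAt (EuclideanHalfSpace n) (Φ x)).source) := h.2 (Φ x) i
    exact Complex.reCLM.contDiff.contMDiff.contMDiffAt.comp x
      (h2.contMDiffAt (ho.mem_nhds (mem_chart_source _ (Φ x))))
  have h3 : ContMDiffAt (𝓡∂ n) 𝓘(ℝ, Fin n → ℝ) ∞
      (fun y i => (extChartAt (𝓡∂ n) (Φ x) (Φ y)) i) x := contMDiffAt_pi_space.2 h1
  exact (EuclideanSpace.equiv (Fin n) ℝ).symm.contDiff.contMDiff.contMDiffAt.comp x h3

theorem ext_es {F : Type*} [NormedAddCommGroup F] [NormedSpace ℝ F]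
    {T T' : EuclideanSpace ℝ (Fin n) →L[ℝ] F} (h : ∀ i, T (es n i) = T' (es n i))
    (v : EuclideanSpace ℝ (Fin n)) : T v = T' v := by
  rw [EYM.en_expand v, map_sum, map_sum]
  refine Finset.sum_congr rfl fun i _ => ?_
  rw [map_smul, map_smul]
  exact congrArg _ (h i)

theorem bil_es (G : Matrix (Fin n) (Fin n) ℝ) (i j : Fin n) :
    S.bil G (es n i) (es n j) = G i j := by
  rw [S.bil_apply]
  simp only [S.es_apply]
  simp

theorem met_of {G G' : Matrix (Fin n) (Fin n) ℝ} {Φ : M → M} {x : M}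
    (hΦ : MDifferentiableAt (𝓡∂ n) (𝓡∂ n) Φ x)
    (h : G' = (S.jacOf n Φ x)ᵀ * G * S.jacOf n Φ x) (v w : EuclideanSpace ℝ (Fin n)) :
    S.bil G' v w = S.bil G (S.brRel_D Φ x v) (S.brRel_D Φ x w) := by
  have h1 : ∀ i j, S.bil G' (es n i) (es n j) =
      S.bil G (S.brRel_D Φ x (es n i)) (S.brRel_D Φ x (es n j)) := by
    intro i j
    rw [bil_es, S.bil_apply, h]
    simp only [Matrix.mul_apply, Matrix.transpose_apply, Finset.sum_mul, S.brRel_jac hΦ]
    rw [Finset.sum_comm]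
    refine Finset.sum_congr rfl fun k _ => Finset.sum_congr rfl fun l _ => ?_
    ring
  have h2 : ∀ i, S.bil G' (es n i) w = S.bil G (S.brRel_D Φ x (es n i)) (S.brRel_D Φ x w) :=
    fun i => ext_es (T := S.bil G' (es n i))
      (T' := (S.bil G (S.brRel_D Φ x (es n i))).comp (S.brRel_D Φ x)) (h1 i) w
  exact ext_es (T := (S.bil G').flip w)
    (T' := ((S.bil G).flip (S.brRel_D Φ x w)).comp (S.brRel_D Φ x)) h2 v

theorem isSmU_toE {U : M → Matrix (Fin N) (Fin N) ℂ} (h : S.Uni n U) :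
    IsSmoothUnitary (𝓡∂ n) (fun x => S.toE (U x)) := by
  refine ⟨contMDiffOn_univ.1 (S.contMDiffOn_toE fun a b => h.1 a b), fun x => ?_⟩
  have e3 := congrArg S.toE (h.2 x)
  rw [S.toE_mul, S.toE_star, S.toE_one] at e3
  have e4 : (U x) * (U x)ᴴ = 1 := mul_eq_one_comm.1 (h.2 x)
  have e5 := congrArg S.toE e4
  rw [S.toE_mul, S.toE_star, S.toE_one] at e5
  exact Unitary.mem_iff.2 ⟨e3, e5⟩

theorem rel_S {P Q : S.Pair n N M} {Γ : Set M} (h : S.Related Γ P Q) :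
    GaugeEquivalent Γ (S.gOf P) (S.connOf P) (S.gOf Q) (S.connOf Q) := by
  obtain ⟨Φ, U, hU, hfix, hg, hA⟩ := h
  have hd : ∀ x, MDifferentiableAt (𝓡∂ n) (𝓡∂ n) Φ x := fun x =>
    Φ.contMDiff.mdifferentiableAt (by simp)
  have hV := isSmU_toE hU
  refine ⟨Φ, fun x => S.toE (U x), hV, fun x hx => ⟨(hfix x hx).1, ?_⟩,
    fun x v w => met_of (hd x) (hg x) v w, fun x v => ?_⟩
  · show S.toE (U x) = 1
    rw [(hfix x hx).2, S.toE_one]
  · let LA : EndF N →L[ℝ] EndF N :=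
      ContinuousLinearMap.mul ℝ (EndF N) (ContinuousLinearMap.adjoint (S.toE (U x)))
    let RA : EndF N →L[ℝ] EndF N := (ContinuousLinearMap.mul ℝ (EndF N)).flip (S.toE (U x))
    refine ext_es (T := S.formOf (Q.co x))
      (T' := LA.comp (RA.comp ((S.formOf (P.co (Φ x))).comp (S.brRel_D Φ x))) +
        LA.comp (dI (𝓡∂ n) (fun x => S.toE (U x)) x)) (fun j => ?_) v
    have h1 := S.lgd_ofE hV x j
    simp only [S.ofE_toE] at h1
    have h3 : S.toE (∑ i, S.jacOf n Φ x i j • P.co (Φ x) i) =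
        S.formOf (P.co (Φ x)) (S.brRel_D Φ x (es n j)) := by
      rw [S.formOf_apply, S.toE_rsum]
      simp only [S.brRel_jac (hd x)]
    refine (S.connOf_es Q x j).trans ?_
    rw [hA x j, S.toE_add, h1, S.toE_mul, S.toE_mul, S.toE_star, h3, mul_assoc]
    rfl

theorem related_S {Γ : Set M} {P Q : B.Pair (B.at_ n M) N} (h : B.Related Γ P Q) :
    S.Related Γ (B.conv P) (B.conv Q) := by
  obtain ⟨Φ, Ψ, U, h1, h2, h3, h4, h5, h6, h7⟩ := h
  refine ⟨⟨⟨Φ, Ψ, fun x => (h3 x).1, fun x => (h3 x).2⟩, contMDiff_of_smMap h1,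
    contMDiff_of_smMap h2⟩, U, ⟨h4, h5⟩, h6, fun x => ?_, fun x j => ?_⟩
  · have h8 := (h7 x).1
    rw [B.brSt3_jac] at h8
    exact h8
  · have h8 := (h7 x).2 j
    rw [B.brSt3_jac] at h8
    refine h8.trans ?_
    unfold S.lgd
    rw [mul_add, mul_assoc]
    congr 2
    ext a b
    exact B.dj_old (fun y => U (B.pt (B.at_ n M) x y) a b) (B.at_nonneg x x) j

theorem rel {Γ : Set M} {P Q : B.Pair (B.at_ n M) N} (h : B.Related Γ P Q) :
    GaugeEquivalent Γ (S.gOf (B.conv P)) (S.connOf (B.conv P)) (S.gOf (B.conv Q))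
      (S.connOf (B.conv Q)) := rel_S (related_S h)

end Vale.Agent.P088W19
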